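import Vale.Agent.N124.Asm

/-! P124: sums of null sequences and a selection lemma. -/

set_option linter.all false

open Finset Filter Topology TopologicalSpace
open scoped ZeroAtInfty NNReal

namespace N124B

open N124

variable {E : Type} [NormedAddCommGroup E]

theorem c0le {f : C₀(ℕ, E)} {C : ℝ} (hC : 0 ≤ C) : ‖f‖ ≤ C ↔ ∀ d, ‖f d‖ ≤ C := by
  rw [← ZeroAtInftyContinuousMap.norm_toBCF_eq_norm]
  exact BoundedContinuousFunction.norm_le hC

theorem c0ap (f : C₀(ℕ, E)) (d : ℕ) : ‖f d‖ ≤ ‖f‖ := (c0le (norm_nonneg f)).1 le_rfl d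

theorem c0fin (f : C₀(ℕ, E)) {ε : ℝ} (hε : 0 < ε) : {d | ¬ ‖f d‖ < ε}.Finite := by
  have h := zero_at_infty f
  rw [cocompact_eq_cofinite] at h
  have h3 := h.norm
  rw [norm_zero] at h3
  exact h3.eventually_lt_const hε

/-- a null sequence -/
def mk0 (g : ℕ → E) (h : ∀ ε : ℝ, 0 < ε → {d | ¬ ‖g d‖ < ε}.Finite) : C₀(ℕ, E) where
  toFun := g
  continuous_toFun := continuous_of_discreteTopology
  zero_at_infty' := by
    rw [cocompact_eq_cofinite, NormedAddGroup.tendsto_nhds_zero]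
    exact h

theorem aball_c0 (hE : ABall E) : ABall C₀(ℕ, E) := by
  classical
  intro ι _ x r hx ε hε
  have hr : ∀ i, 0 ≤ r i := fun i => by
    linarith [hx i i, norm_nonneg (x i - x i)]
  have h4 : (⋃ i, {d | ¬ ‖x i d‖ < ε}).Finite := Set.finite_iUnion fun i => c0fin (x i) hε
  choose z hz using fun d => hE ι (fun i => x i d) r
    (fun i j => (c0ap (x i - x j) d).trans (hx i j)) ε hε
  refine ⟨mk0 (fun d => if d ∈ ⋃ i, {d | ¬ ‖x i d‖ < ε} then z d else 0) fun δ hδ =>
    h4.subset fun d hd => ?_, fun i => (c0le (by linarith [hr i])).2 fun d => ?_⟩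
  · by_contra h
    exact hd (by rw [if_neg h, norm_zero]; exact hδ)
  · change ‖(if d ∈ ⋃ i, {d | ¬ ‖x i d‖ < ε} then z d else 0) - x i d‖ ≤ _
    split_ifs with hd
    · exact hz d i
    · have hd' : ‖x i d‖ < ε := by
        by_contra h
        exact hd (Set.mem_iUnion.2 ⟨i, h⟩)
      rw [zero_sub, norm_neg]
      linarith [hr i]

variable [NormedSpace ℝ E]

/-- the `k`-th inclusion -/
noncomputable def sing (k : ℕ) : E →L[ℝ] C₀(ℕ, E) :=
  LinearMap.mkContinuous
    { toFun := fun x => mk0 (fun d => if d = k then x else 0) fun ε hε =>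
        (Set.finite_singleton k).subset fun d hd => by
          by_contra h
          exact hd (by rw [if_neg (show d ≠ k from h), norm_zero]; exact hε)
      map_add' := fun x y => ZeroAtInftyContinuousMap.ext fun d => by
        change (if d = k then x + y else 0) = (if d = k then x else 0) + if d = k then y else 0
        split_ifs <;> simp
      map_smul' := fun c x => ZeroAtInftyContinuousMap.ext fun d => by
        change (if d = k then c • x else 0) = c • if d = k then x else 0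
        split_ifs <;> simp } 1 fun x => by
    rw [one_mul]
    refine (c0le (norm_nonneg x)).2 fun d => ?_
    change ‖if d = k then x else 0‖ ≤ _
    split_ifs <;> simp

theorem sing_apply (k d : ℕ) (x : E) : sing k x d = if d = k then x else 0 := rfl

/-- the `k`-th coordinate -/
noncomputable def ev (k : ℕ) : C₀(ℕ, E) →L[ℝ] E :=
  LinearMap.mkContinuous ⟨⟨fun f => f k, fun _ _ => rfl⟩, fun _ _ => rfl⟩ 1 fun f => by
    rw [one_mul]
    exact c0ap f k

theorem ev_apply (k : ℕ) (f : C₀(ℕ, E)) : ev k f = f k := rfl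

theorem sum_sing (F : Finset ℕ) (z : ℕ → E) (d : ℕ) :
    (∑ j ∈ F, sing j (z j)) d = if d ∈ F then z d else 0 := by
  rw [← ev_apply, map_sum]
  simp only [ev_apply, sing_apply, Finset.sum_ite_eq]

theorem hasSum_sing (f : C₀(ℕ, E)) : HasSum (fun j => sing j (f j)) f := by
  rw [HasSum, Metric.tendsto_nhds]
  intro ε hε
  filter_upwards [eventually_ge_atTop (c0fin f (half_pos hε)).toFinset] with F hF
  rw [dist_eq_norm]
  refine ((c0le (half_pos hε).le).2 fun d => ?_).trans_lt (half_lt_self hε)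
  rw [ZeroAtInftyContinuousMap.sub_apply, sum_sing]
  split_ifs with hd
  · rw [sub_self, norm_zero]
    exact (half_pos hε).le
  · rw [zero_sub, norm_neg]
    by_contra h
    exact hd (hF (by simpa using (not_le.1 h).le))

theorem sep_c0 [SeparableSpace E] : SeparableSpace C₀(ℕ, E) := by
  rw [← isSeparable_univ_iff]
  have h1 : IsSeparable (⋃ k, Set.range (sing (E := E) k)) :=
    IsSeparable.iUnion fun k => isSeparable_range (sing k).continuous
  refine h1.span (R := ℝ) |>.closure.mono fun f _ => ?_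
  refine mem_closure_of_tendsto (hasSum_sing f) (Eventually.of_forall fun F => ?_)
  exact Submodule.sum_mem _ fun j _ => Submodule.subset_span (Set.mem_iUnion.2 ⟨j, _, rfl⟩)

theorem sel_step (m : ℕ → ℕ → ℝ) (h0 : ∀ k j, 0 ≤ m k j) (M : ℝ)
    (h : ∀ k (F : Finset ℕ), ∑ j ∈ F, m k j ≤ M) {ε η : ℝ} (hε : 0 < ε) (hη : 0 < η)
    {A : Set ℕ} (hA : A.Infinite) : ∃ j ∈ A, ∃ B : Set ℕ, B.Infinite ∧ B ⊆ A ∧
      (∀ k ∈ B, j < k ∧ m k j ≤ η) ∧ ∀ F : Finset ℕ, ↑F ⊆ B → ∑ i ∈ F, m j i ≤ ε := by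
  obtain ⟨N, hN⟩ := exists_nat_gt (M / η)
  obtain ⟨G, hG, hc⟩ := hA.exists_subset_card_eq N
  obtain ⟨j, hj, hB⟩ : ∃ j ∈ G, {k ∈ A | m k j ≤ η}.Infinite := by
    by_contra hcon
    push Not at hcon
    refine hA ((G.finite_toSet.biUnion fun j hj => hcon j hj).subset fun k hk => ?_)
    by_contra h1
    have h2 : ∀ j ∈ G, η ≤ m k j := fun j hj => by
      by_contra h3
      exact h1 (Set.mem_biUnion hj ⟨hk, (not_le.1 h3).le⟩)
    have h3 := (Finset.card_nsmul_le_sum G _ _ h2).trans (h k G)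
    rw [hc, nsmul_eq_mul] at h3
    rw [div_lt_iff₀ hη] at hN
    linarith
  obtain ⟨s, hs⟩ := summable_iff_vanishing_norm.1 (summable_of_sum_le (h0 j) (h j)) ε hε
  refine ⟨j, hG hj, {k ∈ A | m k j ≤ η} \ (s ∪ Set.Iic j),
    hB.diff (s.finite_toSet.union (Set.finite_Iic j)), fun k hk => hk.1.1,
    fun k hk => ⟨not_le.1 fun h => hk.2 (Or.inr h), hk.1.2⟩, fun F hF => ?_⟩
  exact (le_abs_self _).trans
    (hs F (Finset.disjoint_left.2 fun a ha hs => (hF ha).2 (Or.inl hs))).le

theorem sel (m : ℕ → ℕ → ℝ) (h0 : ∀ k j, 0 ≤ m k j) (M : ℝ)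
    (h : ∀ k (F : Finset ℕ), ∑ j ∈ F, m k j ≤ M) {ε : ℝ} (hε : 0 < ε) :
    ∃ σ : ℕ → ℕ, StrictMono σ ∧ ∀ k (F : Finset ℕ), k ∉ F → ∑ j ∈ F, m (σ k) (σ j) ≤ ε := by
  choose j hj B hB hBA h1 h2 using fun (n : ℕ) (A : {A : Set ℕ // A.Infinite}) =>
    sel_step m h0 M h (half_pos hε) (show 0 < ε / 2 / 2 / 2 ^ n by positivity) A.2
  let St : ℕ → {A : Set ℕ // A.Infinite} := fun n =>
    Nat.rec ⟨Set.univ, Set.infinite_univ⟩ (fun n A => ⟨B n A, hB n A⟩) n
  have hanti : Antitone fun n => (St n).1 := antitone_nat_of_succ_le fun n => hBA n (St n)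
  have hmem : ∀ n k, n < k → j k (St k) ∈ B n (St n) := fun n k hk => hanti hk (hj k (St k))
  have hσ : StrictMono fun n => j n (St n) := fun n k hk => (h1 n _ _ (hmem n k hk)).1
  refine ⟨fun n => j n (St n), hσ, fun k F hk => ?_⟩
  rw [← Finset.sum_filter_add_sum_filter_not F (· < k), ← add_halves ε]
  refine add_le_add ((Finset.sum_le_sum fun n hn =>
    (h1 n _ _ (hmem n k (Finset.mem_filter.1 hn).2)).2).trans
    (sum_le_hasSum _ (fun _ _ => by positivity) (hasSum_geometric_two' _))) ?_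
  rw [← Finset.sum_image (f := m (j k (St k))) (g := fun n => j n (St n)) hσ.injective.injOn]
  refine h2 k _ _ fun i hi => ?_
  obtain ⟨n, hn, rfl⟩ := Finset.mem_image.1 hi
  obtain ⟨hn1, hn2⟩ := Finset.mem_filter.1 hn
  exact hmem k n (lt_of_le_of_ne (not_lt.1 hn2) fun e => hk (e ▸ hn1))

/-- an operator on a sum of null sequences that is not small on the summands fixes a copy of
the space of real null sequences -/
theorem fix_c0 {W : Type*} [NormedAddCommGroup W] [NormedSpace ℝ W] (Φ : C₀(ℕ, E) →L[ℝ] W)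
    (x : ℕ → E) (hx : ∀ k, ‖x k‖ ≤ 1) {δ : ℝ} (hδ : 0 < δ) (h : ∀ k, δ ≤ ‖Φ (sing k (x k))‖) :
    ∃ (U : C₀(ℕ, ℝ) →L[ℝ] W) (K : ℝ≥0), AntilipschitzWith K U := by
  classical
  choose φ hφ hφ' using fun k => exists_dual_vector'' ℝ (Φ (sing k (x k)))
  have hb : ∀ k w, |φ k w| ≤ ‖w‖ := fun k w =>
    ((φ k).le_opNorm w).trans (mul_le_of_le_one_left (norm_nonneg _) (hφ k))
  obtain ⟨σ, hσ, hs⟩ := sel (fun k j => |φ k (Φ (sing j (x j)))|) (fun _ _ => abs_nonneg _) ‖Φ‖
    (fun k F => by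
      choose c hc hc' using fun j => RCLike.exists_norm_eq_mul_self (φ k (Φ (sing j (x j))))
      have e : ∑ j ∈ F, |φ k (Φ (sing j (x j)))| = φ k (Φ (∑ j ∈ F, sing j (c j • x j))) := by
        simp only [map_sum, map_smul, smul_eq_mul]
        exact Finset.sum_congr rfl fun j _ => hc' j
      rw [e]
      refine (le_abs_self _).trans ((hb _ _).trans ((Φ.le_opNorm _).trans
        (mul_le_of_le_one_right (norm_nonneg _) ((c0le zero_le_one).2 fun d => ?_))))
      rw [sum_sing]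
      split_ifs
      · rw [norm_smul, hc, one_mul]
        exact hx d
      · simp) (half_pos hδ)
  let y : ℕ → E := fun i => if i ∈ Set.range σ then x i else 0
  have hy : ∀ (t : ℝ) i, ‖t • y i‖ ≤ ‖t‖ := fun t i => by
    rw [norm_smul]
    refine mul_le_of_le_one_right (norm_nonneg _) ?_
    simp only [y]
    split_ifs
    exacts [hx i, by simp]
  have hτ := Function.leftInverse_invFun hσ.injective
  let U : C₀(ℕ, ℝ) →L[ℝ] C₀(ℕ, E) := LinearMap.mkContinuous
    { toFun := fun a => mk0 (fun i => a (Function.invFun σ i) • y i) fun ε hε =>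
        ((c0fin a hε).image σ).subset fun i hi => by
          by_cases h1 : i ∈ Set.range σ
          · obtain ⟨k, rfl⟩ := h1
            exact ⟨k, fun h2 => hi ((hy _ _).trans_lt (by rwa [hτ k])), rfl⟩
          · exact absurd (by simpa only [y, if_neg h1, smul_zero, norm_zero] using hε) hi
      map_add' := fun a b => ZeroAtInftyContinuousMap.ext fun i => add_smul _ _ _
      map_smul' := fun c a => ZeroAtInftyContinuousMap.ext fun i => mul_smul _ _ _ } 1 fun a => by
    rw [one_mul]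
    exact (c0le (norm_nonneg a)).2 fun i => (hy _ _).trans (c0ap a _)
  have hU : ∀ j (t : ℝ), U (sing j t) = t • sing (σ j) (x (σ j)) := fun j t => by
    ext i
    change sing j t (Function.invFun σ i) • y i = t • sing (σ j) (x (σ j)) i
    rw [sing_apply, sing_apply]
    by_cases h1 : i ∈ Set.range σ
    · obtain ⟨k, rfl⟩ := h1
      simp only [hτ k, hσ.injective.eq_iff, y, Set.mem_range_self, if_true]
      split_ifs with h2
      · rw [h2]
      · simp
    · rw [if_neg (show i ≠ σ j from fun e => h1 ⟨j, e.symm⟩)]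
      simp only [y, if_neg h1, smul_zero]
  refine ⟨Φ.comp U, ⟨2 / δ, by positivity⟩, ContinuousLinearMap.antilipschitz_of_bound _ fun a => ?_⟩
  have h1 : ∀ k, δ * ‖a k‖ ≤ ‖Φ (U a)‖ + δ / 2 * ‖a‖ := fun k => by
    have h2 := (hasSum_sing a).mapL ((φ (σ k)).comp (Φ.comp U))
    simp only [ContinuousLinearMap.comp_apply, hU, map_smul, smul_eq_mul] at h2
    have h3 : |φ (σ k) (Φ (U a)) - a k * φ (σ k) (Φ (sing (σ k) (x (σ k))))| ≤ δ / 2 * ‖a‖ := by
      refine le_of_tendsto ((h2.sub_const _).abs) ?_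
      filter_upwards [eventually_ge_atTop {k}] with F hF
      rw [← Finset.add_sum_erase _ _ (hF (Finset.mem_singleton_self k)), add_sub_cancel_left]
      refine (Finset.abs_sum_le_sum_abs _ _).trans (le_trans ?_ (mul_le_mul_of_nonneg_right
        (hs k (F.erase k) (Finset.notMem_erase k F)) (norm_nonneg a)))
      rw [Finset.sum_mul]
      refine Finset.sum_le_sum fun j _ => ?_
      rw [abs_mul, mul_comm]
      exact mul_le_mul_of_nonneg_left (c0ap a j) (abs_nonneg _)
    have h4 := abs_sub_abs_le_abs_sub (a k * φ (σ k) (Φ (sing (σ k) (x (σ k))))) (φ (σ k) (Φ (U a)))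
    rw [abs_sub_comm, abs_mul, hφ' (σ k)] at h4
    have h5 := mul_le_mul_of_nonneg_left ((h (σ k)).trans (le_abs_self _)) (abs_nonneg (a k))
    have h6 := hb (σ k) (Φ (U a))
    simp only [RCLike.ofReal_real_eq_id, id] at h4 h3
    rw [Real.norm_eq_abs, hφ' (σ k)] at *
    simp only [RCLike.ofReal_real_eq_id, id] at *
    linarith
  have h2 : ‖a‖ ≤ (‖Φ (U a)‖ + δ / 2 * ‖a‖) / δ :=
    (c0le (by positivity)).2 fun k => by rw [le_div_iff₀' hδ]; exact h1 k
  rw [le_div_iff₀ hδ] at h2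
  change ‖a‖ ≤ 2 / δ * ‖Φ (U a)‖
  rw [div_mul_eq_mul_div, le_div_iff₀ hδ]
  linarith

end N124B
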