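import Mathlib.Analysis.Normed.Lp.lpSpace
import Mathlib.Topology.ContinuousMap.ZeroAtInfty
import Mathlib.Topology.ContinuousMap.Compact
import Mathlib.Topology.UnitInterval

/-! P124: Lipschitz isomorphism and two linear properties. -/

open scoped ZeroAtInfty NNReal

namespace N124B

/-- A bijection that is Lipschitz with Lipschitz inverse exists. -/
def BiLip (X Y : Type) [NormedAddCommGroup X] [NormedAddCommGroup Y] : Prop :=
  ∃ (f : X ≃ Y) (K : ℝ≥0), LipschitzWith K f ∧ LipschitzWith K f.symm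

/-- `X` is isomorphic to a complemented subspace of `Y`. -/
def Compl (X Y : Type) [NormedAddCommGroup X] [NormedSpace ℝ X] [NormedAddCommGroup Y]
    [NormedSpace ℝ Y] : Prop :=
  ∃ (S : X →L[ℝ] Y) (T : Y →L[ℝ] X), ∀ x, T (S x) = x

/-- `X` has no subspace isomorphic to `c₀`. -/
def NoC0 (X : Type) [NormedAddCommGroup X] [NormedSpace ℝ X] : Prop :=
  ∀ (U : C₀(ℕ, ℝ) →L[ℝ] X) (K : ℝ≥0), ¬ AntilipschitzWith K U

end N124B
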