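import Vale.Agent.N124B.NC
import Vale.Agent.N124B.Defs
import Vale.Agent.N124.Mil

/-! P124: families of counterexamples. -/

set_option linter.all false

open Filter Topology TopologicalSpace
open scoped ZeroAtInfty NNReal ENNReal

namespace N124B

open N124 P124H186

section
variable {X Y W : Type} [NormedAddCommGroup X] [NormedAddCommGroup Y] [NormedAddCommGroup W]

theorem biLip_of (h : LE X Y) : BiLip X Y := by
  obtain ⟨f, L, L', h1, h2⟩ := h
  exact ⟨f, max L L', h1.weaken (le_max_left _ _), h2.weaken (le_max_right _ _)⟩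

theorem LE_swap (X Y : Type) [NormedAddCommGroup X] [NormedAddCommGroup Y] :
    LE (X × Y) (Y × X) :=
  ⟨Equiv.prodComm X Y, _, _, LipschitzWith.prod_snd.prodMk LipschitzWith.prod_fst,
    LipschitzWith.prod_snd.prodMk LipschitzWith.prod_fst⟩

variable [NormedSpace ℝ X] [NormedSpace ℝ Y] [NormedSpace ℝ W]

theorem LE_of_cle (e : X ≃L[ℝ] Y) : LE X Y := ⟨e.toEquiv, _, _, e.lipschitz, e.symm.lipschitz⟩

theorem Compl.trans (h : Compl X Y) (h' : Compl Y W) : Compl X W := by
  obtain ⟨S, T, h⟩ := h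
  obtain ⟨S', T', h'⟩ := h'
  exact ⟨S'.comp S, T.comp T', fun x => by simp [h, h']⟩

theorem compl_of_cle (e : X ≃L[ℝ] Y) : Compl X Y := ⟨e, e.symm, e.symm_apply_apply⟩

theorem compl_fst : Compl X (X × Y) :=
  ⟨ContinuousLinearMap.inl ℝ X Y, ContinuousLinearMap.fst ℝ X Y, fun _ => rfl⟩

theorem compl_snd : Compl Y (X × Y) :=
  ⟨ContinuousLinearMap.inr ℝ X Y, ContinuousLinearMap.snd ℝ X Y, fun _ => rfl⟩

theorem Compl.prod (V : Type) [NormedAddCommGroup V] [NormedSpace ℝ V] (h : Compl X Y) :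
    Compl (X × V) (Y × V) := by
  obtain ⟨S, T, h⟩ := h
  exact ⟨S.prodMap (.id ℝ V), T.prodMap (.id ℝ V), fun x => Prod.ext (h x.1) rfl⟩

theorem compl_lp (p : ℝ≥0∞) [Fact (1 ≤ p)] : Compl X (lp (fun _ : ℕ => X) p) :=
  ⟨lp.singleContinuousLinearMap ℝ (fun _ : ℕ => X) p 0, lp.evalCLM ℝ (fun _ : ℕ => X) p 0,
    fun x => lp.single_apply_self (E := fun _ : ℕ => X) p 0 x⟩

end

/-- functions on a disjoint union -/
noncomputable def sumCLE (K L : Type) [TopologicalSpace K] [CompactSpace K] [TopologicalSpace L]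
    [CompactSpace L] : C(K ⊕ L, ℝ) ≃L[ℝ] C(K, ℝ) × C(L, ℝ) :=
  ContinuousLinearEquiv.ofBijective
    ((ContinuousMap.compCLM ℝ ℝ ⟨Sum.inl, continuous_inl⟩).prod
      (ContinuousMap.compCLM ℝ ℝ ⟨Sum.inr, continuous_inr⟩))
    (LinearMap.ker_eq_bot'.2 fun f hf => ContinuousMap.ext fun z => by
      rcases z with z | z
      · exact DFunLike.congr_fun (congrArg Prod.fst hf) z
      · exact DFunLike.congr_fun (congrArg Prod.snd hf) z)
    (LinearMap.range_eq_top.2 fun g =>
      ⟨⟨Sum.elim g.1 g.2, g.1.continuous.sumElim g.2.continuous⟩, rfl⟩)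

/-- real and imaginary parts -/
noncomputable def reimCLE (K : Type) [TopologicalSpace K] [CompactSpace K] :
    C(K, ℂ) ≃L[ℝ] C(K, ℝ) × C(K, ℝ) :=
  ContinuousLinearEquiv.equivOfInverse
    ((Complex.reCLM.compLeftContinuous ℝ K).prod (Complex.imCLM.compLeftContinuous ℝ K))
    ((Complex.ofRealCLM.compLeftContinuous ℝ K).coprod
      ((Complex.I • Complex.ofRealCLM).compLeftContinuous ℝ K))
    (fun f => ContinuousMap.ext fun z => by
      change ((f z).re : ℂ) + Complex.I * (f z).im = f z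
      rw [mul_comm, Complex.re_add_im])
    (fun g => Prod.ext (ContinuousMap.ext fun z => by
      change ((g.1 z : ℂ) + Complex.I * g.2 z).re = g.1 z
      simp) (ContinuousMap.ext fun z => by
      change ((g.1 z : ℂ) + Complex.I * g.2 z).im = g.2 z
      simp))

/-- a complex structure on the square of a real Banach space -/
theorem complexify (X D : Type) [NormedAddCommGroup X] [NormedSpace ℝ X] [NormedAddCommGroup D]
    [NormedSpace ℝ D] (ι : X →L[ℝ] D →L[ℝ] ℝ) (hι : ∀ x, ∃ φ, ‖φ‖ ≤ 1 ∧ ι x φ = ‖x‖) :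
    ∃ (Z : Type) (_ : NormedAddCommGroup Z) (_ : NormedSpace ℂ Z) (e : X × X ≃+ Z) (L : ℝ≥0),
      LipschitzWith L e ∧ LipschitzWith 1 e.symm := by
  let J : X →L[ℝ] (D →L[ℝ] ℂ) := (ContinuousLinearMap.compL ℝ D ℝ ℂ Complex.ofRealCLM).comp ι
  let Φ : X × X →L[ℝ] (D →L[ℝ] ℂ) := J.coprod (Complex.I • J)
  have hΦ : ∀ v φ, Φ v φ = (ι v.1 φ : ℂ) + Complex.I * ι v.2 φ := fun _ _ => rfl
  have hb : ∀ v, ‖v‖ ≤ ‖Φ v‖ := fun v => by
    refine norm_prod_le_iff.2 ⟨?_, ?_⟩
    · obtain ⟨φ, h1, h2⟩ := hι v.1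
      have h3 := (Complex.re_le_norm _).trans ((Φ v).unit_le_opNorm φ h1)
      simpa [hΦ, h2] using h3
    · obtain ⟨φ, h1, h2⟩ := hι v.2
      have h3 := (Complex.im_le_norm _).trans ((Φ v).unit_le_opNorm φ h1)
      simpa [hΦ, h2] using h3
  let M : Submodule ℂ (D →L[ℝ] ℂ) :=
    { carrier := Set.range Φ
      add_mem' := by
        rintro _ _ ⟨a, rfl⟩ ⟨b, rfl⟩
        exact ⟨a + b, map_add _ _ _⟩
      zero_mem' := ⟨0, map_zero _⟩
      smul_mem' := by
        rintro c _ ⟨a, rfl⟩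
        refine ⟨(c.re • a.1 - c.im • a.2, c.im • a.1 + c.re • a.2), ?_⟩
        ext φ
        rw [ContinuousLinearMap.smul_apply, hΦ, hΦ]
        apply Complex.ext <;> simp <;> ring }
  let Ψ : X × X →+ M := ⟨⟨fun v => ⟨Φ v, v, rfl⟩, Subtype.ext (map_zero Φ)⟩,
    fun a b => Subtype.ext (map_add Φ a b)⟩
  have ha : AntilipschitzWith 1 Ψ := AddMonoidHomClass.antilipschitz_of_bound Ψ fun v => by
    rw [NNReal.coe_one, one_mul]
    exact hb v
  let e := AddEquiv.ofBijective Ψ ⟨ha.injective, by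
    rintro ⟨_, v, rfl⟩
    exact ⟨v, rfl⟩⟩
  exact ⟨M, inferInstance, inferInstance, e, _, Φ.lipschitz.subtype_mk _,
    ha.to_rightInverse e.apply_symm_apply⟩

/-- the space of the examples -/
abbrev XX : Type := C₀(ℕ, T2.E) × C(unitInterval, ℝ)

theorem sepE : SeparableSpace T2.E := by
  obtain ⟨ec, -, hec⟩ := T2.exists_dense_seq
  exact ⟨⟨Set.range ec, Set.countable_range ec, hec⟩⟩

theorem sepXX : SeparableSpace XX := by
  have := sepE
  have := sep_c0 (E := T2.E)
  infer_instance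

theorem leXX : LE XX C(unitInterval, ℝ) := by
  have := sepE
  have := sep_c0 (E := T2.E)
  exact (((le_I mil).prod _).trans (absorb _
    (aball_c0 (aball_of_dense T2.dense_Ed T2.ballPropOn_Ed)))).trans (le_I mil).symm

theorem ncXX {V : Type} [NormedAddCommGroup V] [NormedSpace ℝ V] (hV : NoC0 V) (K : Type)
    [TopologicalSpace K] [CompactSpace K] : ¬ Compl XX (V × C(K, ℝ)) := fun h => by
  obtain ⟨S, T, h⟩ := compl_fst.trans h
  exact not_compl_prod T2.not_complemented hV S T h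

theorem noC0_unit : NoC0 PUnit := fun U K h => by
  have h1 := congrArg (ev 0) (h.injective (Subsingleton.elim (U (sing 0 1)) (U 0)))
  simp [ev_apply, sing_apply] at h1

theorem sums (W V K : Type) [NormedAddCommGroup W] [NormedSpace ℝ W] [NormedAddCommGroup V]
    [NormedSpace ℝ V] [TopologicalSpace K] [CompactSpace K] (hV : NoC0 V)
    (h : Compl W (V × C(K, ℝ))) : ¬ Compl (W × XX) (W × C(unitInterval, ℝ)) := fun h' =>
  ncXX hV (K ⊕ unitInterval) ((compl_snd.trans h').trans ((h.prod _).trans (compl_of_cle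
    ((ContinuousLinearEquiv.prodAssoc ℝ _ _ _).trans
      ((ContinuousLinearEquiv.refl ℝ V).prodCongr (sumCLE K unitInterval).symm)))))

theorem lps (p : ℝ≥0∞) [Fact (1 ≤ p)] (hp : p ≠ ⊤) :
    ¬ Compl (lp (fun _ : ℕ => XX) p) (lp (fun _ : ℕ => C(unitInterval, ℝ)) p) := fun h => by
  obtain ⟨S, T, h⟩ := compl_fst.trans ((compl_lp p).trans h)
  exact not_compl_lp T2.not_complemented p hp S T h

theorem cplx : ∃ (Z : Type) (_ : NormedAddCommGroup Z) (_ : NormedSpace ℂ Z),
    CompleteSpace Z ∧ SeparableSpace Z ∧ BiLip Z C(unitInterval, ℂ) ∧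
      IsEmpty (Z ≃ₜ+ C(unitInterval, ℂ)) := by
  obtain ⟨Z, i1, i2, e, L, h1, h2⟩ :=
    complexify XX (StrongDual ℝ XX) (NormedSpace.inclusionInDoubleDual ℝ XX)
      fun x => exists_dual_vector'' ℝ x
  have := sepXX
  refine ⟨Z, i1, i2, ?_, e.surjective.denseRange.separableSpace h1.continuous, biLip_of ?_,
    ⟨fun g => ?_⟩⟩
  · exact completeSpace_of_isComplete_univ (e.surjective.range_eq ▸
      (h2.to_rightInverse e.symm_apply_apply).isComplete_range h1.uniformContinuous)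
  · exact (LE.symm ⟨e.toEquiv, _, _, h1, h2⟩).trans ((((leXX.prod _).trans (LE_swap _ _)).trans
      (leXX.prod _)).trans (LE_of_cle (reimCLE _)).symm)
  · refine ncXX noC0_unit (unitInterval ⊕ unitInterval) ((compl_fst (Y := XX)).trans
      (Compl.trans ?_ ((compl_of_cle ((reimCLE _).trans (sumCLE _ _).symm)).trans compl_snd)))
    exact ⟨(e.trans g.toAddEquiv).toAddMonoidHom.toRealLinearMap (g.continuous.comp h1.continuous),
      (e.trans g.toAddEquiv).symm.toAddMonoidHom.toRealLinearMap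
        (h2.continuous.comp g.symm.continuous), (e.trans g.toAddEquiv).symm_apply_apply⟩

end N124B
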