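import Vale.Agent.N124B.C0

/-! P124: a sum of null sequences that is not complemented in larger spaces. -/

set_option linter.all false

open Finset Filter Topology TopologicalSpace
open scoped ZeroAtInfty NNReal ENNReal

namespace N124B

open N124 P124H186

variable {E : Type} [NormedAddCommGroup E] [NormedSpace ℝ E] [CompleteSpace E]

theorem exists_far (hE : T10.NotComp E) {K : Type} [TopologicalSpace K] [CompactSpace K]
    (A : E →L[ℝ] C(K, ℝ)) (B : C(K, ℝ) →L[ℝ] E) : ∃ x, ‖x‖ ≤ 1 ∧ 1 / 2 < ‖x - B (A x)‖ := by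
  have h : 1 / 2 < ‖1 - B.comp A‖ := by
    by_contra hc
    obtain ⟨u, hu⟩ := isUnit_one_sub_of_norm_lt_one (x := 1 - B.comp A) (by linarith [not_lt.1 hc])
    rw [sub_sub_cancel] at hu
    refine hE K A ((↑u⁻¹ : E →L[ℝ] E).comp B) ?_
    rw [ContinuousLinearMap.comp_assoc, ← hu]
    exact u.inv_mul
  obtain ⟨x, hx, hx'⟩ := ContinuousLinearMap.exists_lt_apply_of_lt_opNorm _ h
  exact ⟨x, hx.le, hx'⟩

theorem exists_big (hE : T10.NotComp E) {V : Type*} [NormedAddCommGroup V] [NormedSpace ℝ V]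
    (S : C₀(ℕ, E) →L[ℝ] V) (T : V →L[ℝ] C₀(ℕ, E)) (h : ∀ x, T (S x) = x)
    {K : Type} [TopologicalSpace K] [CompactSpace K] (A : V →L[ℝ] C(K, ℝ)) (B : C(K, ℝ) →L[ℝ] V)
    (k : ℕ) : ∃ x, ‖x‖ ≤ 1 ∧ 1 / (2 * (‖T‖ + 1)) < ‖S (sing k x) - B (A (S (sing k x)))‖ := by
  obtain ⟨x, hx, hx'⟩ := exists_far hE (A.comp (S.comp (sing k))) ((ev k).comp (T.comp B))
  refine ⟨x, hx, ?_⟩
  have e : x - ((ev k).comp (T.comp B)) ((A.comp (S.comp (sing k))) x) =
      T (S (sing k x) - B (A (S (sing k x)))) k := by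
    rw [map_sub, h, ZeroAtInftyContinuousMap.sub_apply, sing_apply, if_pos rfl]
    rfl
  rw [e] at hx'
  have h1 := hx'.trans_le ((c0ap _ k).trans (T.le_opNorm _))
  rw [div_lt_iff₀ (by positivity)]
  nlinarith [norm_nonneg (S (sing k x) - B (A (S (sing k x))))]

theorem not_compl_prod (hE : T10.NotComp E) {W : Type*} [NormedAddCommGroup W] [NormedSpace ℝ W]
    (hW : ∀ (U : C₀(ℕ, ℝ) →L[ℝ] W) (L : ℝ≥0), ¬ AntilipschitzWith L U)
    {K : Type} [TopologicalSpace K] [CompactSpace K] (S : C₀(ℕ, E) →L[ℝ] W × C(K, ℝ))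
    (T : W × C(K, ℝ) →L[ℝ] C₀(ℕ, E)) (h : ∀ x, T (S x) = x) : False := by
  choose x hx hx' using exists_big hE S T h (ContinuousLinearMap.snd ℝ _ _)
    (ContinuousLinearMap.inr ℝ _ _)
  obtain ⟨U, L, hU⟩ := fix_c0 ((ContinuousLinearMap.fst ℝ _ _).comp S) x hx
    (δ := 1 / (2 * (‖T‖ + 1))) (by positivity) fun k => (hx' k).le.trans (by
      rw [Prod.norm_def]
      simp)
  exact hW U L hU

theorem two_point {X : Type*} [NormedAddCommGroup X] [NormedSpace ℝ X] {q : ℝ} (hq : 1 ≤ q)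
    (a b : X) : 2 * ‖a‖ ^ q ≤ ‖a + b‖ ^ q + ‖a - b‖ ^ q := by
  have h1 : ‖a‖ ≤ (1 / 2 : ℝ) • ‖a + b‖ + (1 / 2 : ℝ) • ‖a - b‖ := by
    have := norm_add_le (a + b) (a - b)
    rw [add_add_sub_cancel, ← two_smul ℝ, norm_smul, Real.norm_two] at this
    simp only [smul_eq_mul]
    linarith
  have h2 := (convexOn_rpow hq).2 (norm_nonneg (a + b)) (norm_nonneg (a - b))
    (show (0 : ℝ) ≤ 1 / 2 by norm_num) (show (0 : ℝ) ≤ 1 / 2 by norm_num) (by norm_num)
  have h3 := (Real.rpow_le_rpow (norm_nonneg a) h1 (by linarith)).trans h2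
  simp only [smul_eq_mul] at h3
  linarith

theorem not_compl_lp (hE : T10.NotComp E) (p : ℝ≥0∞) [Fact (1 ≤ p)] (hp : p ≠ ⊤)
    {K : Type} [TopologicalSpace K] [CompactSpace K]
    (S : C₀(ℕ, E) →L[ℝ] lp (fun _ : ℕ => C(K, ℝ)) p)
    (T : lp (fun _ : ℕ => C(K, ℝ)) p →L[ℝ] C₀(ℕ, E)) (h : ∀ x, T (S x) = x) : False := by
  have hq : 1 ≤ p.toReal := by
    simpa using ENNReal.toReal_mono hp (Fact.out : 1 ≤ p)
  have hq0 : 0 < p.toReal := by linarith
  have hp0 : p ≠ 0 := (zero_lt_one.trans_le (Fact.out : 1 ≤ p)).ne'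
  set δ := (1 / (2 * (‖T‖ + 1))) ^ p.toReal with hδ
  have hδ0 : 0 < δ := by positivity
  have step : ∀ n k, ∃ x, ‖x‖ ≤ 1 ∧ ∃ n', n ≤ n' ∧
      δ ≤ ∑ i ∈ Ico n n', ‖S (sing k x) i‖ ^ p.toReal := by
    intro n k
    let A : lp (fun _ : ℕ => C(K, ℝ)) p →L[ℝ] C(Fin n × K, ℝ) := LinearMap.mkContinuous
      { toFun := fun v => ⟨fun z => v z.1 z.2,
          continuous_prod_of_discrete_left.2 fun i => (v i).continuous⟩
        map_add' := fun _ _ => rfl
        map_smul' := fun _ _ => rfl } 1 fun v => by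
      rw [one_mul]
      exact (ContinuousMap.norm_le _ (norm_nonneg v)).2 fun z =>
        ((v z.1).norm_coe_le_norm z.2).trans (lp.norm_apply_le_norm hp0 v z.1)
    let B : C(Fin n × K, ℝ) →L[ℝ] lp (fun _ : ℕ => C(K, ℝ)) p :=
      ∑ i : Fin n, (lp.singleContinuousLinearMap ℝ (fun _ : ℕ => C(K, ℝ)) p i).comp
        (ContinuousMap.compCLM ℝ ℝ ⟨fun t => (i, t), by fun_prop⟩)
    obtain ⟨x, hx, hx'⟩ := exists_big hE S T h A B k
    have e : ∀ v, B (A v) = ∑ i ∈ range n, lp.single p i (v i) := fun v => by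
      rw [ContinuousLinearMap.sum_apply, Finset.sum_range]
      rfl
    have h1 := Real.rpow_lt_rpow (by positivity) hx' hq0
    rw [e, lp.norm_compl_sum_single hq0, lt_sub_iff_add_lt] at h1
    obtain ⟨n', h2, h3⟩ := (((lp.hasSum_norm hq0 (S (sing k x))).tendsto_sum_nat.eventually
      (lt_mem_nhds h1)).and (eventually_ge_atTop n)).exists
    refine ⟨x, hx, n', h3, ?_⟩
    rw [Finset.sum_Ico_eq_sub _ h3]
    linarith
  have main : ∀ N : ℕ, ∃ (n : ℕ) (y : C₀(ℕ, E)), ‖y‖ ≤ 1 ∧ (∀ i, N ≤ i → y i = 0) ∧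
      N * δ ≤ ∑ i ∈ range n, ‖S y i‖ ^ p.toReal := by
    intro N
    induction N with
    | zero => exact ⟨0, 0, by simp, fun _ _ => rfl, by simp⟩
    | succ N ih =>
      obtain ⟨n, y, hy, hy0, hs⟩ := ih
      obtain ⟨x, hx, n', hn, hx'⟩ := step n N
      have h1 : ∀ z : E, ‖z‖ ≤ 1 → ‖y + sing N z‖ ≤ 1 ∧ ∀ i, N + 1 ≤ i → (y + sing N z) i = 0 := by
        intro z hz
        refine ⟨(c0le zero_le_one).2 fun d => ?_, fun i hi => ?_⟩
        · rw [ZeroAtInftyContinuousMap.add_apply, sing_apply]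
          split_ifs with hd
          · rwa [hy0 d hd.ge, zero_add]
          · rw [add_zero]
            exact (c0ap y d).trans hy
        · rw [ZeroAtInftyContinuousMap.add_apply, sing_apply, hy0 i (by omega), if_neg (by omega),
            add_zero]
      have h2 : 2 * ((N + 1 : ℕ) * δ) ≤ ∑ i ∈ range n', ‖S (y + sing N x) i‖ ^ p.toReal +
          ∑ i ∈ range n', ‖S (y + sing N (-x)) i‖ ^ p.toReal := by
        rw [← Finset.sum_add_distrib, ← Finset.sum_range_add_sum_Ico _ hn]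
        simp only [map_add, map_neg, lp.coeFn_add, lp.coeFn_neg, Pi.add_apply, Pi.neg_apply,
          ← sub_eq_add_neg, map_sub, lp.coeFn_sub, Pi.sub_apply]
        have h3 := Finset.sum_le_sum (s := range n) fun i _ => two_point hq (S y i) (S (sing N x) i)
        have h4 := Finset.sum_le_sum (s := Ico n n') fun i _ =>
          two_point hq (S (sing N x) i) (S y i)
        simp only [add_comm (S (sing N x) _) (S y _), norm_sub_rev (S (sing N x) _) (S y _)] at h4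
        rw [← Finset.mul_sum] at h3 h4
        push_cast
        linarith
      by_cases h5 : (N + 1 : ℕ) * δ ≤ ∑ i ∈ range n', ‖S (y + sing N x) i‖ ^ p.toReal
      · exact ⟨n', _, (h1 x hx).1, (h1 x hx).2, h5⟩
      · exact ⟨n', _, (h1 (-x) (by rwa [norm_neg])).1, (h1 (-x) (by rwa [norm_neg])).2,
          by linarith [not_le.1 h5]⟩
  obtain ⟨N, hN⟩ := exists_nat_gt (‖S‖ ^ p.toReal / δ)
  obtain ⟨n, y, hy, -, hs⟩ := main N
  have h6 := (hs.trans (lp.sum_rpow_le_norm_rpow hq0 (S y) _)).trans (Real.rpow_le_rpow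
    (norm_nonneg _) ((S.le_opNorm y).trans (mul_le_of_le_one_right (norm_nonneg _) hy)) hq0.le)
  rw [div_lt_iff₀ hδ0] at hN
  linarith

section Lip

variable {X Y : Type} [NormedAddCommGroup X] [NormedSpace ℝ X] [NormedAddCommGroup Y]
  [NormedSpace ℝ Y]

/-- the coordinatewise action of a Lipschitz map that fixes the origin -/
noncomputable def lpMap (p : ℝ≥0∞) {f : X → Y} {L : ℝ≥0} (hf : LipschitzWith L f) (h0 : f 0 = 0)
    (v : lp (fun _ : ℕ => X) p) : lp (fun _ : ℕ => Y) p :=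
  ⟨fun i => f (v i), Memℓp.mono' (lp.memℓp ((L : ℝ) • v)) fun i => by
    have := hf.dist_le_mul (v i) 0
    rw [h0, dist_zero_right, dist_zero_right] at this
    rwa [lp.coeFn_smul, Pi.smul_apply, norm_smul, NNReal.norm_eq]⟩

theorem lpMap_lip (p : ℝ≥0∞) [Fact (1 ≤ p)] {f : X → Y} {L : ℝ≥0} (hf : LipschitzWith L f)
    (h0 : f 0 = 0) : LipschitzWith L (lpMap p hf h0) :=
  LipschitzWith.of_dist_le_mul fun v w => by
    rw [dist_eq_norm, dist_eq_norm, ← NNReal.norm_eq, ← norm_smul]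
    refine lp.norm_mono (zero_lt_one.trans_le (Fact.out : 1 ≤ p)).ne' fun i => ?_
    rw [lp.coeFn_smul, Pi.smul_apply, norm_smul, NNReal.norm_eq, lp.coeFn_sub, lp.coeFn_sub,
      Pi.sub_apply, Pi.sub_apply, ← dist_eq_norm, ← dist_eq_norm]
    exact hf.dist_le_mul _ _

theorem LE_lp (p : ℝ≥0∞) [Fact (1 ≤ p)] (h : LE X Y) :
    LE (lp (fun _ : ℕ => X) p) (lp (fun _ : ℕ => Y) p) := by
  obtain ⟨f, L, L', h1, h2⟩ := h
  let g : X ≃ Y := f.trans (Equiv.subRight (f 0))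
  have g0 : g 0 = 0 := sub_self _
  have g1 : LipschitzWith L g := LipschitzWith.of_dist_le_mul fun a b =>
    (dist_sub_right _ _ _).trans_le (h1.dist_le_mul a b)
  have g2 : LipschitzWith (L' * 1) g.symm := h2.comp (isometry_add_right (f 0)).lipschitz
  have g3 : g.symm 0 = 0 := g.symm_apply_eq.2 g0.symm
  exact ⟨⟨lpMap p g1 g0, lpMap p g2 g3, fun v => lp.ext (funext fun i => g.symm_apply_apply _),
    fun v => lp.ext (funext fun i => g.apply_symm_apply _)⟩, _, _, lpMap_lip p g1 g0,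
    lpMap_lip p g2 g3⟩

end Lip

end N124B
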